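import Mathlib

/-!
Orbit-canonical colourings for finite sets of complex numbers closed under dyadic rotations.
-/

namespace Vale.Agent.P058

/-- For all finitely many colours there is a finite witness `P` such that every colouring has an
isometric copy (squared distances `q`) in which related points get the same colour. -/
def Can {Z : Type} (q : Z → Z → ℝ) (R : Z → Z → Prop) : Prop :=
  ∀ (κ : Type) [Finite κ], ∃ (ι : Type) (_ : Fintype ι) (P : Finset (ι → ℝ)),
    ∀ c : (ι → ℝ) → κ, ∃ Φ : Z → ι → ℝ, (∀ z, Φ z ∈ P) ∧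
      (∀ z z', ∑ l, (Φ z l - Φ z' l) ^ 2 = q z z') ∧
      ∀ z z', R z z' → c (Φ z) = c (Φ z')

lemma Can.comap {Z Z' : Type} {q : Z → Z → ℝ} {R : Z → Z → Prop} (h : Can q R) (g : Z' → Z)
    {q' : Z' → Z' → ℝ} {R' : Z' → Z' → Prop} (hq : ∀ z z', q' z z' = q (g z) (g z'))
    (hR : ∀ z z', R' z z' → R (g z) (g z')) : Can q' R' := by
  intro κ _
  obtain ⟨ι, hι, P, hP⟩ := h κ
  refine ⟨ι, hι, P, fun c => ?_⟩
  obtain ⟨Φ, h1, h2, h3⟩ := hP c
  exact ⟨fun z => Φ (g z), fun z => h1 _, fun z z' => by rw [h2, hq],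
    fun z z' hzz => h3 _ _ (hR _ _ hzz)⟩

lemma Can.scale {Z : Type} {q : Z → Z → ℝ} {R : Z → Z → Prop} (h : Can q R) {t : ℝ}
    (ht : 0 ≤ t) : Can (fun z z' => t * q z z') R := by
  classical
  intro κ _
  obtain ⟨ι, hι, P, hP⟩ := h κ
  refine ⟨ι, hι, P.image (fun f l => Real.sqrt t * f l), fun c => ?_⟩
  obtain ⟨Φ, h1, h2, h3⟩ := hP (fun f => c (fun l => Real.sqrt t * f l))
  refine ⟨fun z l => Real.sqrt t * Φ z l, fun z => Finset.mem_image_of_mem _ (h1 z),
    fun z z' => ?_, h3⟩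
  beta_reduce
  rw [← h2, Finset.mul_sum]
  refine Finset.sum_congr rfl fun l _ => ?_
  rw [← mul_sub, mul_pow, Real.sq_sqrt ht]

lemma Can.prod {Z1 Z2 : Type} [Finite Z2] {q1 : Z1 → Z1 → ℝ} {q2 : Z2 → Z2 → ℝ}
    {R1 : Z1 → Z1 → Prop} {R2 : Z2 → Z2 → Prop} (h1 : Can q1 R1) (h2 : Can q2 R2) :
    Can (fun z z' : Z1 × Z2 => q1 z.1 z'.1 + q2 z.2 z'.2)
      (fun z z' => R1 z.1 z'.1 ∧ R2 z.2 z'.2) := by
  classical
  intro κ _
  obtain ⟨ι1, hι1, P1, hP1⟩ := h1 (Z2 → κ)
  obtain ⟨ι2, hι2, P2, hP2⟩ := h2 (P1 → κ)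
  refine ⟨ι1 ⊕ ι2, inferInstance, (P1 ×ˢ P2).image (fun p => Sum.elim p.1 p.2), fun c => ?_⟩
  obtain ⟨Φ2, g1, g2, g3⟩ := hP2 (fun v p => c (Sum.elim p.1 v))
  obtain ⟨Φ1, f1, f2, f3⟩ := hP1 (fun u z2 => c (Sum.elim u (Φ2 z2)))
  refine ⟨fun z => Sum.elim (Φ1 z.1) (Φ2 z.2),
    fun z => Finset.mem_image.2 ⟨(Φ1 z.1, Φ2 z.2),
      Finset.mem_product.2 ⟨f1 _, g1 _⟩, rfl⟩, fun z z' => ?_, fun z z' hz => ?_⟩
  · simp [Fintype.sum_sum_type, f2, g2]
  · have e1 := congrFun (f3 _ _ hz.1) z.2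
    have e2 := congrFun (g3 _ _ hz.2) ⟨Φ1 z'.1, f1 _⟩
    exact e1.trans e2

lemma Can.piFin {Z : Type} [Finite Z] {R : Z → Z → Prop} :
    ∀ (n : ℕ) (q : Fin n → Z → Z → ℝ), (∀ i, Can (q i) R) →
      Can (fun f f' : Fin n → Z => ∑ i, q i (f i) (f' i)) (fun f f' => ∀ i, R (f i) (f' i))
  | 0, q, _ => by
    intro κ _
    exact ⟨Empty, inferInstance, {fun e => e.elim}, fun c =>
      ⟨fun _ e => e.elim, fun _ => Finset.mem_singleton_self _, fun _ _ => by simp,
        fun _ _ _ => rfl⟩⟩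
  | n + 1, q, h => by
    refine ((h 0).prod (Can.piFin n (fun i => q i.succ) fun i => h i.succ)).comap
      (fun f => (f 0, fun i => f i.succ)) (fun f f' => ?_) (fun f f' hf => ⟨hf 0, fun i => hf _⟩)
    exact Fin.sum_univ_succ _

lemma Can.pi {Z : Type} [Finite Z] {R : Z → Z → Prop} {J : Type} [Fintype J]
    (q : J → Z → Z → ℝ) (h : ∀ j, Can (q j) R) :
    Can (fun f f' : J → Z => ∑ j, q j (f j) (f' j)) (fun f f' => ∀ j, R (f j) (f' j)) := by
  refine (Can.piFin _ (fun i => q ((Fintype.equivFin J).symm i)) fun i => h _).comap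
    (fun f i => f ((Fintype.equivFin J).symm i)) (fun f f' => ?_) (fun f f' hf i => hf _)
  exact ((Fintype.equivFin J).symm.sum_comp (fun j => q j (f j) (f' j))).symm

/-- One step: an isometry `g` whose square fixes every class. -/
lemma Can.step {Z : Type} [Finite Z] {q : Z → Z → ℝ} {R : Z → Z → Prop} (hR : Equivalence R)
    (g : Z → Z) (hg : ∀ z z', q (g z) (g z') = q z z') (hgR : ∀ z z', R z z' → R (g z) (g z'))
    (hgg : ∀ z, R (g (g z)) z) (hq : ∀ z, q z z = 0) (h : Can q R) :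
    Can q (fun z z' => R z z' ∨ R (g z) z') := by
  classical
  have := Fintype.ofFinite Z
  suffices H : ∀ S : Finset Z, Can q
      (fun z z' => R z z' ∨ (R (g z) z' ∧ ∃ s ∈ S, R s z ∨ R s (g z))) by
    refine (H Finset.univ).comap id (fun _ _ => rfl) fun z z' hz => ?_
    rcases hz with hz | hz
    · exact Or.inl hz
    · exact Or.inr ⟨hz, z, Finset.mem_univ z, Or.inl (hR.refl z)⟩
  intro S
  induction S using Finset.induction_on with
  | empty =>
    refine h.comap id (fun _ _ => rfl) fun z z' hz => ?_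
    rcases hz with hz | ⟨-, s, hs, -⟩
    · exact hz
    · simp at hs
  | @insert a S _ ih =>
    set RS := fun z z' => R z z' ∨ (R (g z) z' ∧ ∃ s ∈ S, R s z ∨ R s (g z)) with hRS
    intro κ _
    have := Fintype.ofFinite κ
    set N := Fintype.card κ + 1 with hN
    obtain ⟨ι, hι, P, hP⟩ := (Can.pi (J := Fin N) (fun _ z z' => (1 / 2 : ℝ) * q z z')
      fun _ => ih.scale (by norm_num)) κ
    refine ⟨ι, hι, P, fun c => ?_⟩
    obtain ⟨Φ, f1, f2, f3⟩ := hP c
    set one : Fin N → Fin N → Z := fun p i => if i = p then g a else a with hone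
    obtain ⟨p, p', hpp, hcol⟩ := Fintype.exists_ne_map_eq_of_card_lt
      (fun p => c (Φ (one p))) (by simp [hN])
    set F : Z → Fin N → Z := fun z i => if i = p then z else if i = p' then g z else a with hF
    refine ⟨fun z => Φ (F z), fun z => f1 _, fun z z' => ?_, ?_⟩
    · rw [f2]
      beta_reduce
      rw [Fintype.sum_eq_add p p' hpp]
      · simp [hF, hpp.symm, hg]; ring
      · rintro i ⟨h1, h2⟩
        simp [hF, h1, h2, hq]
    have hsame : ∀ z z', (∀ i, R (F z i) (F z' i) ∨ RS (F z i) (F z' i)) →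
        c (Φ (F z)) = c (Φ (F z')) := fun z z' hh =>
      f3 _ _ fun i => (hh i).elim Or.inl id
    have hto : ∀ (z : Z) (k : Fin N), (∀ i, R (F z i) (one k i)) →
        c (Φ (F z)) = c (Φ (one k)) := fun z k hh => f3 _ _ fun i => Or.inl (hh i)
    have hgo : ∀ z, R a z → c (Φ (F z)) = c (Φ (one p')) := by
      intro z hz
      apply hto
      intro i
      simp only [hF, hone]
      rcases eq_or_ne i p with rfl | h1
      · simp [hpp, hR.symm hz]
      rcases eq_or_ne i p' with rfl | h2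
      · simp [h1, hgR _ _ (hR.symm hz)]
      · simp [h1, h2, hR.refl]
    have hgo' : ∀ z, R (g a) z → c (Φ (F z)) = c (Φ (one p)) := by
      intro z hz
      apply hto
      intro i
      simp only [hF, hone]
      rcases eq_or_ne i p with rfl | h1
      · simp [hR.symm hz]
      rcases eq_or_ne i p' with rfl | h2
      · simp [h1, hR.trans (hgR _ _ (hR.symm hz)) (hgg a)]
      · simp [h1, h2, hR.refl]
    intro z z' hz
    rcases hz with hz | ⟨hzz, s, hs, hsz⟩
    · refine hsame z z' fun i => Or.inl ?_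
      simp only [hF]
      split_ifs
      exacts [hz, hgR _ _ hz, hR.refl a]
    rcases Finset.mem_insert.1 hs with rfl | hs
    · rcases hsz with hsz | hsz
      · rw [hgo z hsz, hgo' z' (hR.trans (hgR _ _ hsz) hzz)]
        exact hcol.symm
      · rw [hgo' z (hR.trans (hgR _ _ hsz) (hgg z)), hgo z' (hR.trans hsz hzz)]
        exact hcol
    · refine hsame z z' fun i => ?_
      simp only [hF]
      split_ifs
      · exact Or.inr (Or.inr ⟨hzz, s, hs, hsz⟩)
      · refine Or.inr (Or.inr ⟨hgR _ _ hzz, s, hs, ?_⟩)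
        rcases hsz with hsz | hsz
        · exact Or.inr (hR.trans hsz (hR.symm (hgg z)))
        · exact Or.inl hsz
      · exact Or.inl (hR.refl a)

/-- The finite set of all rotations of points of `Y` by `2^K`-th roots of unity. -/
noncomputable def orbitSet (K : ℕ) (Y : Finset ℂ) : Finset ℂ :=
  ((Polynomial.nthRootsFinset (2 ^ K) (1 : ℂ)) ×ˢ Y).image fun p => p.1 * p.2

lemma mem_orbitSet {K : ℕ} {Y : Finset ℂ} {u y : ℂ} (hu : u ^ 2 ^ K = 1) (hy : y ∈ Y) :
    u * y ∈ orbitSet K Y :=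
  Finset.mem_image.2 ⟨(u, y), Finset.mem_product.2
    ⟨(Polynomial.mem_nthRootsFinset (by positivity) 1).2 hu, hy⟩, rfl⟩

lemma mul_mem_orbitSet {K : ℕ} {Y : Finset ℂ} {u z : ℂ} (hu : u ^ 2 ^ K = 1)
    (hz : z ∈ orbitSet K Y) : u * z ∈ orbitSet K Y := by
  obtain ⟨⟨v, y⟩, hp, rfl⟩ := Finset.mem_image.1 hz
  obtain ⟨hv, hy⟩ := Finset.mem_product.1 hp
  rw [Polynomial.mem_nthRootsFinset (by positivity)] at hv
  rw [← mul_assoc]
  exact mem_orbitSet (by rw [mul_pow, hu, hv, one_mul]) hy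

/-- Rotation classes. -/
def Rot (b : ℕ) {V : Finset ℂ} (z z' : V) : Prop := ∃ u : ℂ, u ^ 2 ^ b = 1 ∧ (z' : ℂ) = u * z

lemma rot_equivalence (b : ℕ) (V : Finset ℂ) : Equivalence (Rot b (V := V)) := by
  constructor
  · exact fun z => ⟨1, one_pow _, (one_mul _).symm⟩
  · rintro z z' ⟨u, hu, h⟩
    have hu0 : u ≠ 0 := by rintro rfl; simp at hu
    exact ⟨u⁻¹, by rw [inv_pow, hu, inv_one], by rw [h, inv_mul_cancel_left₀ hu0]⟩
  · rintro z z' z'' ⟨u, hu, h⟩ ⟨v, hv, h'⟩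
    exact ⟨v * u, by rw [mul_pow, hu, hv, one_mul], by rw [h', h, mul_assoc]⟩

lemma can_rot (K : ℕ) (Y : Finset ℂ) : ∀ b ≤ K,
    Can (fun z z' : orbitSet K Y => Complex.normSq ((z : ℂ) - z')) (Rot b) := by
  intro b
  induction b with
  | zero =>
    intro _ κ _
    classical
    refine ⟨Fin 2, inferInstance, Finset.univ.image
      (fun z : orbitSet K Y => ![(z : ℂ).re, (z : ℂ).im]), fun c => ?_⟩
    refine ⟨fun z => ![(z : ℂ).re, (z : ℂ).im],
      fun z => Finset.mem_image_of_mem _ (Finset.mem_univ z), fun z z' => ?_, ?_⟩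
    · simp [Fin.sum_univ_two, Complex.normSq_apply, sq]
    · rintro z z' ⟨u, hu, h⟩
      simp only [pow_zero, pow_one] at hu
      rw [hu, one_mul] at h
      rw [Subtype.ext h]
  | succ b ih =>
    intro hb
    obtain ⟨ω, hω⟩ : ∃ ω : ℂ, IsPrimitiveRoot ω (2 ^ (b + 1)) :=
      ⟨_, Complex.isPrimitiveRoot_exp (2 ^ (b + 1)) (pow_ne_zero _ two_ne_zero)⟩
    have hωK : ω ^ 2 ^ K = 1 := by
      obtain ⟨k, hk⟩ := pow_dvd_pow 2 hb
      rw [hk, pow_mul, hω.pow_eq_one, one_pow]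
    have hneg : ω ^ 2 ^ b = -1 := by
      have h2 : (ω ^ 2 ^ b) ^ 2 = 1 := by rw [← pow_mul, ← pow_succ, hω.pow_eq_one]
      rcases sq_eq_one_iff.1 h2 with h | h
      · exact absurd h (hω.pow_ne_one_of_pos_of_lt (by positivity)
          (Nat.pow_lt_pow_right (by norm_num) (Nat.lt_succ_self b)))
      · exact h
    have hnorm : Complex.normSq ω = 1 := by
      rw [Complex.normSq_eq_norm_sq, hω.norm'_eq_one (by positivity), one_pow]
    set g : orbitSet K Y → orbitSet K Y :=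
      fun z => ⟨ω * z, mul_mem_orbitSet hωK z.2⟩ with hgdef
    refine ((ih (Nat.le_of_succ_le hb)).step (rot_equivalence b _) g (fun z z' => ?_) ?_
      (fun z => ?_) (fun z => by simp)).comap id (fun _ _ => rfl) ?_
    · simp only [hgdef]
      rw [← mul_sub, map_mul, hnorm, one_mul]
    · rintro z z' ⟨u, hu, h⟩
      exact ⟨u, hu, show ω * (z' : ℂ) = u * (ω * z) by rw [h]; ring⟩
    · refine (rot_equivalence b _).symm ⟨ω ^ 2, ?_, show ω * (ω * (z : ℂ)) = ω ^ 2 * z by ring⟩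
      rw [← pow_mul, ← pow_succ', hω.pow_eq_one]
    · rintro z z' ⟨u, hu, h⟩
      have h2 : (u ^ 2 ^ b) ^ 2 = 1 := by rw [← pow_mul, ← pow_succ, hu]
      rcases sq_eq_one_iff.1 h2 with h1 | h1
      · exact Or.inl ⟨u, h1, h⟩
      · have hω0 : ω ≠ 0 := hω.ne_zero (by positivity)
        refine Or.inr ⟨u / ω, ?_, ?_⟩
        · rw [div_pow, h1, hneg, div_self]; norm_num
        · show (z' : ℂ) = u / ω * (ω * z)
          rw [h]; field_simp

end Vale.Agent.P058
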