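import Mathlib

/-!
The notions of the problem: Ramsey, transitive and subtransitive sets, and right kites.
-/

namespace Vale.Agent.P058

/-- `A` is Ramsey: for every `r ≥ 2` some dimension `D ≥ 1` is such that every `r`-colouring of
`ℝ^D` is constant on some distance-preserving image of `A`. -/
def IsRamsey {d : ℕ} (A : Set (EuclideanSpace ℝ (Fin d))) : Prop :=
  ∀ r : ℕ, 2 ≤ r → ∃ D : ℕ, 1 ≤ D ∧ ∀ c : EuclideanSpace ℝ (Fin D) → Fin r,
    ∃ f : A → EuclideanSpace ℝ (Fin D),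
      (∀ x y : A, dist (f x) (f y) = dist (x : EuclideanSpace ℝ (Fin d)) y) ∧
      ∀ x y : A, c (f x) = c (f y)

/-- A finite set on which the isometries of the space mapping it onto itself act transitively. -/
def IsTransitive {n : ℕ} (X : Set (EuclideanSpace ℝ (Fin n))) : Prop :=
  X.Finite ∧ ∀ x ∈ X, ∀ y ∈ X,
    ∃ g : EuclideanSpace ℝ (Fin n) ≃ᵢ EuclideanSpace ℝ (Fin n), g '' X = X ∧ g x = y

/-- `A` is congruent to a subset of a finite transitive set. -/
def IsSubtransitive {d : ℕ} (A : Set (EuclideanSpace ℝ (Fin d))) : Prop :=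
  ∃ (n : ℕ) (X : Set (EuclideanSpace ℝ (Fin n))), IsTransitive X ∧
    ∃ f : A → EuclideanSpace ℝ (Fin n),
      (∀ x y : A, dist (f x) (f y) = dist (x : EuclideanSpace ℝ (Fin d)) y) ∧ ∀ x : A, f x ∈ X

/-- The right kite inscribed in the unit circle with one pair of opposite vertices at `(±1,0)` and
the other at `(a, ±√(1-a²))`. -/
noncomputable def kite (a : ℝ) : Set (EuclideanSpace ℝ (Fin 2)) :=
  {!₂[1, 0], !₂[a, Real.sqrt (1 - a ^ 2)], !₂[-1, 0], !₂[a, -Real.sqrt (1 - a ^ 2)]}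

lemma dist_two_sq (p q r s : ℝ) :
    dist (!₂[p, q] : EuclideanSpace ℝ (Fin 2)) !₂[r, s] ^ 2 = (p - r) ^ 2 + (q - s) ^ 2 := by
  rw [EuclideanSpace.dist_eq, Real.sq_sqrt (Finset.sum_nonneg fun i _ => by positivity)]
  simp [Fin.sum_univ_two, Real.dist_eq, sq_abs]

end Vale.Agent.P058
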