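import Vale.Agent.P058.Defs
import Vale.Agent.P058.Canonical

/-!
The Hales-Jewett gadget: point sets on the circle with Blaschke rotations are Ramsey.
-/

namespace Vale.Agent.P058

open Combinatorics

/-- For every bound `ε` there is a real Blaschke parameter `p` with `p² ≤ ε` that moves every
point of the configuration to a root of unity of order a power of two. -/
def HasGadget {α : Type} (x : α → ℂ) : Prop :=
  ∀ ε : ℝ, 0 < ε → ∃ (p : ℝ) (K : ℕ), p ^ 2 ≤ ε ∧
    ∀ i, ∃ u : ℂ, u ^ 2 ^ K = 1 ∧ (p : ℂ) + x i = u * (1 + p * x i)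

/-- Weights with prescribed tails. -/
lemma exists_weights {P : ℝ} (hP : P < 1) {m : ℕ} (hm : 1 ≤ m) (hmP : P * (m : ℝ) ≤ 1) :
    ∃ σ : ℕ → ℝ, (∀ j < m, 0 ≤ σ j) ∧ ∀ k, 1 ≤ k → k ≤ m →
      ∑ j ∈ Finset.range m, σ j * (if k ≤ j + 1 then 1 else P) = 1 / k := by
  set τ : ℕ → ℝ := fun k => if k ≤ m then (1 / (k : ℝ) - P) / (1 - P) else 0 with hτ
  refine ⟨fun j => τ (j + 1) - τ (j + 2), fun j hj => ?_, fun k hk1 hk => ?_⟩
  · simp only [hτ, if_pos (Nat.succ_le_of_lt hj)]
    split_ifs with h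
    · rw [div_sub_div_same]
      refine div_nonneg ?_ (by linarith)
      have : (1 : ℝ) / ((j + 2 : ℕ) : ℝ) ≤ 1 / ((j + 1 : ℕ) : ℝ) := by
        apply one_div_le_one_div_of_le (by positivity)
        exact_mod_cast Nat.le_succ _
      linarith
    · obtain rfl : j + 1 = m := by omega
      rw [sub_zero]
      refine div_nonneg ?_ (by linarith)
      rw [sub_nonneg, le_div_iff₀ (by positivity)]
      exact hmP
  · set σ := fun j => τ (j + 1) - τ (j + 2) with hσ
    have tail : ∀ l, l ≤ m → ∑ j ∈ Finset.range l, σ j = τ 1 - τ (l + 1) := fun l _ =>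
      Finset.sum_range_sub' (fun j => τ (j + 1)) l
    have hτ1 : τ 1 = 1 := by
      simp only [hτ, if_pos hm, Nat.cast_one, div_one]
      exact div_self (by linarith)
    have hτm : τ (m + 1) = 0 := if_neg (by omega)
    obtain ⟨l, rfl⟩ : ∃ l, k = l + 1 := ⟨k - 1, by omega⟩
    have hsplit := Finset.sum_range_add_sum_Ico σ (show l ≤ m by omega)
    rw [tail l (by omega), tail m le_rfl] at hsplit
    rw [← Finset.sum_range_add_sum_Ico _ (show l ≤ m by omega)]
    have e1 : ∑ j ∈ Finset.range l, σ j * (if l + 1 ≤ j + 1 then 1 else P)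
        = ∑ j ∈ Finset.range l, σ j * P := by
      refine Finset.sum_congr rfl fun j hj => ?_
      rw [Finset.mem_range] at hj
      rw [if_neg (by omega)]
    have e2 : ∑ j ∈ Finset.Ico l m, σ j * (if l + 1 ≤ j + 1 then 1 else P)
        = ∑ j ∈ Finset.Ico l m, σ j := by
      refine Finset.sum_congr rfl fun j hj => ?_
      rw [Finset.mem_Ico] at hj
      rw [if_pos (by omega), mul_one]
    rw [e1, e2, ← Finset.sum_mul, tail l (by omega)]
    have hτl : τ (l + 1) = (1 / ((l + 1 : ℕ) : ℝ) - P) / (1 - P) := if_pos hk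
    have : (1 : ℝ) - P ≠ 0 := by linarith
    rw [hτ1] at hsplit ⊢
    rw [hτm] at hsplit
    rw [show ∑ j ∈ Finset.Ico l m, σ j = τ (l + 1) by linarith, hτl]
    field_simp
    ring

/-- Main Ramsey theorem. -/
theorem ramsey_of_gadget {α : Type} [Fintype α] [Nontrivial α] {x : α → ℂ}
    (h : HasGadget x) (r : ℕ) :
    ∃ D : ℕ, ∀ c : (Fin D → ℝ) → Fin r, ∃ F : α → Fin D → ℝ,
      (∀ i i', ∑ l, (F i l - F i' l) ^ 2 = Complex.normSq (x i - x i')) ∧
      ∀ i i', c (F i) = c (F i') := by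
  classical
  obtain ⟨ι, hι, hHJ⟩ := Line.exists_mono_in_high_dimension α (Fin r)
  set m := Fintype.card ι + 1 with hm
  obtain ⟨p, K, hp, hu⟩ := h (1 / (m + 1)) (by positivity)
  have hmpos : (0 : ℝ) < (m : ℝ) + 1 := by positivity
  have hpm : p ^ 2 * ((m : ℝ) + 1) ≤ 1 := (le_div_iff₀ hmpos).1 hp
  have hm1 : (1 : ℝ) ≤ m := by exact_mod_cast Nat.succ_le_succ (Nat.zero_le _)
  have hP1 : p ^ 2 < 1 := by nlinarith [sq_nonneg p]
  obtain ⟨σ, hσ, htail⟩ :=
    exists_weights (P := p ^ 2) hP1 (m := m) (by omega) (by nlinarith [sq_nonneg p])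
  choose u hu1 hu2 using hu
  set Y : Finset ℂ := Finset.univ.image fun i => 1 + (p : ℂ) * x i with hY
  set Z := orbitSet K Y
  have hlow : ∀ i, 1 + (p : ℂ) * x i ∈ Z := fun i => by
    simpa using mem_orbitSet (K := K) (Y := Y) (one_pow (2 ^ K))
      (Finset.mem_image_of_mem _ (Finset.mem_univ i))
  have hhigh : ∀ i, (p : ℂ) + x i ∈ Z := fun i => by
    rw [hu2 i]; exact mem_orbitSet (hu1 i) (Finset.mem_image_of_mem _ (Finset.mem_univ i))
  have hcan : Can (fun f f' : ι × Fin m → Z =>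
      ∑ j, σ (j.2 : ℕ) * Complex.normSq ((f j : ℂ) - f' j)) (fun f f' => ∀ j, Rot K (f j) (f' j)) :=
    Can.pi _ fun j => (can_rot K Y K le_rfl).scale (hσ _ j.2.2)
  obtain ⟨ι', hι', P, hP⟩ := hcan (Fin r)
  refine ⟨Fintype.card ι', fun c => ?_⟩
  set e := Fintype.equivFin ι'
  obtain ⟨Φ, -, h2, h3⟩ := hP (fun v => c (v ∘ e.symm))
  set low : α → Z := fun i => ⟨_, hlow i⟩ with hlo
  set high : α → Z := fun i => ⟨_, hhigh i⟩ with hhi
  obtain ⟨l, col, hl⟩ := hHJ (fun w => c (Φ (fun j => low (w j.1)) ∘ e.symm))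
  set S := Finset.univ.filter fun s => l.idxFun s = none with hS
  set k := S.card with hk
  have hk1 : 1 ≤ k := by
    obtain ⟨s, hs⟩ := l.proper
    exact Finset.card_pos.2 ⟨s, by simp [hS, hs]⟩
  have hkm : k ≤ m := by
    have : k ≤ Fintype.card ι := Finset.card_le_univ S
    omega
  set G : α → ι × Fin m → Z := fun i j =>
    if l.idxFun j.1 = none ∧ k ≤ (j.2 : ℕ) + 1 then high i else low ((l i) j.1) with hG
  have happ : ∀ i s, (l i) s = (l.idxFun s).getD i := fun i s => rfl
  refine ⟨fun i => Φ (G i) ∘ e.symm, fun i i' => ?_, fun i i' => ?_⟩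
  · have hd : ∀ j : ι × Fin m, Complex.normSq ((G i j : ℂ) - G i' j) =
        (if l.idxFun j.1 = none then
          (if k ≤ (j.2 : ℕ) + 1 then 1 else p ^ 2) else 0) * Complex.normSq (x i - x i') := by
      intro j
      simp only [hG, happ]
      cases hs : l.idxFun j.1 with
      | none =>
        by_cases hj : k ≤ (j.2 : ℕ) + 1
        · simp [hj, hhi]
        · simp only [hj, and_false, if_false, hlo, Option.getD_none, if_true]
          rw [show (1 + (p : ℂ) * x i) - (1 + p * x i') = p * (x i - x i') by ring, map_mul,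
            Complex.normSq_ofReal, sq]
      | some a => simp
    simp only [Function.comp_apply]
    rw [e.symm.sum_comp (fun l => (Φ (G i) l - Φ (G i') l) ^ 2), h2]
    simp only [hd, ← mul_assoc, ← Finset.sum_mul]
    rw [Fintype.sum_prod_type]
    have hs : ∀ s, (∑ j : Fin m, σ (j : ℕ) * if l.idxFun s = none then
          (if k ≤ (j : ℕ) + 1 then (1 : ℝ) else p ^ 2) else 0)
        = if l.idxFun s = none then 1 / (k : ℝ) else 0 := by
      intro s
      by_cases hs : l.idxFun s = none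
      · simp only [hs, if_true]
        rw [← htail k hk1 hkm]
        exact Fin.sum_univ_eq_sum_range (fun j => σ j * if k ≤ j + 1 then (1 : ℝ) else p ^ 2) m
      · simp [hs]
    simp only [hs]
    rw [← Finset.sum_filter, Finset.sum_const, nsmul_eq_mul, ← hk]
    have : (k : ℝ) ≠ 0 := by exact_mod_cast (by omega : k ≠ 0)
    field_simp
  · have key : ∀ i, c (Φ (G i) ∘ e.symm) = col := by
      intro i
      rw [← hl i]
      refine (h3 (fun j => low ((l i) j.1)) (G i) fun j => ?_).symm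
      simp only [hG]
      split_ifs with hj
      · refine ⟨u i, hu1 i, ?_⟩
        simp [hhi, hlo, happ, hj.1, hu2 i]
      · exact (rot_equivalence K Z).refl _
    rw [key, key]

end Vale.Agent.P058
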