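import Vale.Agent.P058.Defs

/-!
The right kite with `a = √2 - 1` is not subtransitive.
-/

namespace Vale.Agent.P058

open scoped InnerProductSpace

/-- An additive map with `T (√2 x) = -√2 T x` and `T 1 = 1`. -/
lemma exists_twist : ∃ T : ℝ →+ ℝ, T 1 = 1 ∧ ∀ x, T (Real.sqrt 2 * x) = -Real.sqrt 2 * T x := by
  have hnot : Real.sqrt 2 ∉ Submodule.span ℚ ({1} : Set ℝ) := by
    rw [Submodule.mem_span_singleton]
    rintro ⟨q, hq⟩
    exact (irrational_sqrt_two.ne_rational q.num q.den)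
      (by rw [← hq, Rat.smul_def, mul_one, Rat.cast_def]; push_cast; rfl)
  obtain ⟨φ, hφ, hbot⟩ := Submodule.exists_dual_map_eq_bot_of_notMem hnot inferInstance
  have h1 : φ 1 = 0 := by
    rw [← Submodule.mem_bot ℚ, ← hbot]
    exact Submodule.mem_map_of_mem (Submodule.mem_span_singleton_self 1)
  set L : ℝ →+ ℝ :=
    { toFun := fun x => x - 2 * Real.sqrt 2 * ((φ x / φ (Real.sqrt 2) : ℚ) : ℝ)
      map_zero' := by simp
      map_add' := fun x y => by simp [add_div]; ring } with hL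
  have hL1 : L 1 = 1 := by simp [hL, h1]
  have hLs : L (Real.sqrt 2) = -Real.sqrt 2 := by
    show Real.sqrt 2 - 2 * Real.sqrt 2 * ((φ (Real.sqrt 2) / φ (Real.sqrt 2) : ℚ) : ℝ) = _
    rw [div_self hφ, Rat.cast_one]; ring
  have hs : Real.sqrt 2 * Real.sqrt 2 = 2 := Real.mul_self_sqrt (by norm_num)
  refine ⟨{ toFun := fun x => (L x - L (Real.sqrt 2 * x) / Real.sqrt 2) / 2
            map_zero' := by simp
            map_add' := fun x y => by simp [mul_add]; ring }, ?_, fun x => ?_⟩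
  · show (L 1 - L (Real.sqrt 2 * 1) / Real.sqrt 2) / 2 = 1
    rw [mul_one, hL1, hLs]
    field_simp
    ring
  · show (L (Real.sqrt 2 * x) - L (Real.sqrt 2 * (Real.sqrt 2 * x)) / Real.sqrt 2) / 2
      = -Real.sqrt 2 * ((L x - L (Real.sqrt 2 * x) / Real.sqrt 2) / 2)
    rw [← mul_assoc, hs, two_mul, map_add]
    have hinv : ∀ z : ℝ, z / Real.sqrt 2 = z * Real.sqrt 2 / 2 := fun z => by
      field_simp
      linear_combination -(z * hs)
    simp only [hinv]
    linear_combination (-(L (Real.sqrt 2 * x)) / 4) * hs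

/-- Four vectors of equal length with a kite dependency and `a² > 1` have two equal members. -/
lemma eq_of_kite_relation {Y : Type} [Fintype Y] {a : ℝ} (ha : 1 < a ^ 2) (A B C E : Y → ℝ)
    (hrel : ∀ y, (1 + a) * A y + (1 - a) * B y = C y + E y)
    (hB : ∑ y, B y ^ 2 = ∑ y, A y ^ 2) (hC : ∑ y, C y ^ 2 = ∑ y, A y ^ 2)
    (hE : ∑ y, E y ^ 2 = ∑ y, A y ^ 2) : A = B := by
  have key : ∑ y, (C y - E y) ^ 2 = (1 - a ^ 2) * ∑ y, (A y - B y) ^ 2 := by
    have h : ∀ y, (C y - E y) ^ 2 - (1 - a ^ 2) * (A y - B y) ^ 2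
        = 2 * C y ^ 2 + 2 * E y ^ 2 - 2 * (1 + a) * A y ^ 2 - 2 * (1 - a) * B y ^ 2 := by
      intro y
      have hy := hrel y
      linear_combination ((1 + a) * A y + (1 - a) * B y + C y + E y) * hy
    have h2 := Finset.sum_congr rfl (fun y (_ : y ∈ (Finset.univ : Finset Y)) => h y)
    simp only [Finset.sum_sub_distrib, Finset.sum_add_distrib, ← Finset.mul_sum] at h2
    rw [hB, hC, hE] at h2
    linarith
  have h0 : ∑ y, (A y - B y) ^ 2 = 0 := by
    have := Finset.sum_nonneg (s := Finset.univ) fun y _ => sq_nonneg (C y - E y)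
    have := Finset.sum_nonneg (s := Finset.univ) fun y _ => sq_nonneg (A y - B y)
    nlinarith
  funext y
  have := (Finset.sum_eq_zero_iff_of_nonneg fun y _ => sq_nonneg _).1 h0 y (Finset.mem_univ y)
  exact sub_eq_zero.1 (pow_eq_zero_iff (by norm_num : 2 ≠ 0) |>.1 this)

/-- Affine dependencies survive in every congruent copy, so weighted squared distances to the
four points are independent of the reference point. -/
lemma weighted_dist_const {E : Type*} [NormedAddCommGroup E] [InnerProductSpace ℝ E]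
    {ι : Type*} [Fintype ι] (p : ι → E) (c : ι → ℝ) (hc : ∑ i, c i = 0)
    (hq : ∀ i, ∑ j, c j * dist (p i) (p j) ^ 2 = 0) (y : E) :
    ∑ j, c j * dist y (p j) ^ 2 = ∑ j, c j * ‖p j‖ ^ 2 := by
  have hexp : ∀ y : E, ∑ j, c j * dist y (p j) ^ 2
      = ∑ j, c j * ‖p j‖ ^ 2 - 2 * ⟪y, ∑ j, c j • p j⟫_ℝ := by
    intro y
    simp_rw [dist_eq_norm, norm_sub_sq_real, inner_sum, real_inner_smul_right]
    rw [Finset.mul_sum]
    simp only [mul_add, mul_sub, Finset.sum_add_distrib, Finset.sum_sub_distrib, ← Finset.sum_mul,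
      hc, zero_mul]
    simp only [mul_left_comm _ (2 : ℝ)]
    ring
  have hR : (∑ j, c j • p j) = 0 := by
    rw [← inner_self_eq_zero (𝕜 := ℝ), sum_inner]
    have h := fun i => hexp (p i)
    simp_rw [hq] at h
    calc ∑ i, ⟪c i • p i, ∑ j, c j • p j⟫_ℝ
        = ∑ i, c i * ((∑ j, c j * ‖p j‖ ^ 2) / 2) := by
          refine Finset.sum_congr rfl fun i _ => ?_
          rw [real_inner_smul_left]
          have := h i
          congr 1
          linarith
      _ = 0 := by rw [← Finset.sum_mul, hc, zero_mul]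
  rw [hexp, hR, inner_zero_right, mul_zero, sub_zero]

lemma kite_not_subtransitive_aux (a : ℝ) (ha : a = Real.sqrt 2 - 1) :
    ¬ IsSubtransitive (kite a) := by
  rintro ⟨n, X, ⟨hX, htr⟩, f, hf, hfX⟩
  obtain ⟨T, hT1, hTs⟩ := exists_twist
  set b := Real.sqrt (1 - a ^ 2) with hb
  have hsq : Real.sqrt 2 ^ 2 = 2 := Real.sq_sqrt (by norm_num)
  have hb2 : b ^ 2 = 1 - a ^ 2 := by
    rw [hb, Real.sq_sqrt]
    have : 1 ≤ Real.sqrt 2 := Real.one_le_sqrt.2 (by norm_num)
    rw [ha]; nlinarith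
  set q : Fin 4 → kite a := ![⟨!₂[1, 0], by simp [kite]⟩, ⟨!₂[a, b], by simp [kite, hb]⟩,
    ⟨!₂[-1, 0], by simp [kite]⟩, ⟨!₂[a, -b], by simp [kite, hb]⟩] with hq
  set c : Fin 4 → ℝ := ![1 + a, -1, 1 - a, -1] with hc
  set p := fun i => f (q i) with hp
  have hd : ∀ i, ∑ j, c j * dist (p i) (p j) ^ 2 = 0 := by
    intro i
    simp only [hp, hf]
    fin_cases i <;> simp [hq, hc, Fin.sum_univ_four, dist_two_sq] <;>
      linear_combination (-2 : ℝ) * hb2
  have hc0 : ∑ i, c i = 0 := by simp [hc, Fin.sum_univ_four]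
  have hconst : ∀ y, ∑ j, c j * dist y (p j) ^ 2 = 0 := fun y => by
    rw [weighted_dist_const p c hc0 hd, ← weighted_dist_const p c hc0 hd (p 0)]
    exact hd 0
  have := hX.fintype
  set V : Fin 4 → X → ℝ := fun i y => T (dist (y : EuclideanSpace ℝ (Fin n)) (p i) ^ 2) with hV
  have hperm : ∀ i, ∑ y, V i y ^ 2 = ∑ y, V 0 y ^ 2 := by
    intro i
    obtain ⟨g, hgX, hg⟩ := htr _ (hfX (q 0)) _ (hfX (q i))
    let σ : X ≃ X := (Equiv.Set.image g X g.injective).trans (Equiv.setCongr hgX)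
    rw [← σ.sum_comp (fun y => V i y ^ 2)]
    refine Finset.sum_congr rfl fun y _ => ?_
    have : ((σ y : X) : EuclideanSpace ℝ (Fin n)) = g y := rfl
    simp only [hV, hp, this, ← hg, g.dist_eq]
  have hrel : ∀ y, (1 + (-Real.sqrt 2 - 1)) * V 0 y + (1 - (-Real.sqrt 2 - 1)) * V 2 y
      = V 1 y + V 3 y := by
    intro y
    have hy := hconst y
    simp [hc, Fin.sum_univ_four] at hy
    have h : Real.sqrt 2 * dist (y : EuclideanSpace ℝ (Fin n)) (p 0) ^ 2
        + -(dist (y : EuclideanSpace ℝ (Fin n)) (p 1) ^ 2)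
        + (dist (y : EuclideanSpace ℝ (Fin n)) (p 2) ^ 2
          + dist (y : EuclideanSpace ℝ (Fin n)) (p 2) ^ 2
          + -(Real.sqrt 2 * dist (y : EuclideanSpace ℝ (Fin n)) (p 2) ^ 2))
        + -(dist (y : EuclideanSpace ℝ (Fin n)) (p 3) ^ 2) = 0 := by
      rw [ha] at hy
      linear_combination hy
    have h' := congrArg T h
    simp only [map_add, map_neg, hTs, map_zero] at h'
    simp only [hV]
    linarith
  have heq := eq_of_kite_relation (by nlinarith [Real.sqrt_nonneg 2]) (V 0) (V 2) (V 1) (V 3) hrel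
    (hperm 2) (hperm 1) (hperm 3)
  have h0 := congrFun heq ⟨p 0, hfX _⟩
  have h4 : dist (p 0) (p 2) ^ 2 = 4 := by
    simp only [hp, hf]
    simp [hq, dist_two_sq]; norm_num
  simp only [hV, h4, dist_self] at h0
  rw [show (4 : ℝ) = 1 + 1 + 1 + 1 by norm_num] at h0
  simp [map_add, hT1] at h0
  norm_num at h0

theorem kite_not_subtransitive : ¬ IsSubtransitive (kite (Real.sqrt 2 - 1)) :=
  kite_not_subtransitive_aux _ rfl

end Vale.Agent.P058
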