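import Vale.Agent.P058.Defs

/-!
An additive obstruction: nine concyclic points whose parameters move with a transcendental `τ`.
-/

namespace Vale.Agent.P058

open Polynomial

/-- Homogeneous coordinates of the point of parameter `s` on the unit circle. -/
def circVec {R : Type*} [CommRing R] (s : R) : Fin 3 → R := ![1 + s ^ 2, 1 - s ^ 2, 2 * s]

lemma map_circVec {R S : Type*} [CommRing R] [CommRing S] (f : R →+* S) (s : R) (k : Fin 3) :
    f (circVec s k) = circVec (f s) k := by
  fin_cases k <;> simp [circVec, map_ofNat]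

/-- The parameter of the point number `i = (p, q)`: `p + (q - p) z`. -/
def par {R : Type*} [CommRing R] (z : R) (i : Fin 3 × Fin 3) : R :=
  (i.1.val : R) + ((i.2.val : R) - (i.1.val : R)) * z

lemma map_par {R S : Type*} [CommRing R] [CommRing S] (f : R →+* S) (z : R) (i : Fin 3 × Fin 3) :
    f (par z i) = par (f z) i := by
  simp [par]

/-- Coordinates `(1, x, y)` of the point number `i` at the variable `z`. -/
noncomputable def coordK (i : Fin 3 × Fin 3) (k : Fin 3) : RatFunc ℚ :=
  circVec (par RatFunc.X i) k / circVec (par RatFunc.X i) 0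

/-- The grid matrix specialises to a Kronecker square, so it is nonsingular. -/
lemma grid_det_ne_zero :
    (Matrix.of fun (i m : Fin 3 × Fin 3) =>
      circVec (par (C (X : ℚ[X])) i) m.1 * circVec (par (X : ℚ[X][X]) i) m.2).det ≠ 0 := by
  intro h
  set V : Matrix (Fin 3) (Fin 3) ℚ := Matrix.of fun p k => circVec (p.val : ℚ) k with hV
  have hVdet : V.det ≠ 0 := by
    rw [hV, Matrix.det_fin_three]
    simp [circVec]
    norm_num
  set ev : ℚ[X][X] →+* ℚ := (evalRingHom (0 : ℚ)).comp (evalRingHom (1 : ℚ[X])) with hev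
  have h' := congrArg ev h
  rw [map_zero, RingHom.map_det] at h'
  have hK : ev.mapMatrix (Matrix.of fun (i m : Fin 3 × Fin 3) =>
      circVec (par (C (X : ℚ[X])) i) m.1 * circVec (par (X : ℚ[X][X]) i) m.2)
      = Matrix.kronecker V V := by
    ext i m
    simp only [RingHom.mapMatrix_apply, Matrix.map_apply, Matrix.of_apply, map_mul, map_circVec,
      map_par, Matrix.kronecker, Matrix.kroneckerMap_apply, hV]
    simp [hev, par]
  rw [hK, Matrix.kronecker, Matrix.det_kronecker] at h'
  exact (mul_ne_zero (pow_ne_zero _ hVdet) (pow_ne_zero _ hVdet)) h'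

variable {τ : ℝ} (hτ : Transcendental ℚ τ)

/-- Evaluation at `τ`. -/
noncomputable def evT : RatFunc ℚ →+* ℝ :=
  RatFunc.liftRingHom (aeval τ).toRingHom
    (nonZeroDivisors_le_comap_nonZeroDivisors_of_injective _ (transcendental_iff_injective.1 hτ))

/-- The coordinates of point `i`. -/
noncomputable def coordR (i : Fin 3 × Fin 3) (k : Fin 3) : ℝ := evT hτ (coordK i k)

lemma evT_X : evT hτ RatFunc.X = τ := by
  simp [evT, ← RatFunc.algebraMap_X]

lemma coordR_eq (i : Fin 3 × Fin 3) (k : Fin 3) :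
    coordR hτ i k = circVec (par τ i) k / circVec (par τ i) 0 := by
  rw [coordR, coordK, map_div₀, map_circVec, map_circVec, map_par, evT_X]

include hτ in
lemma coordK_zero (i : Fin 3 × Fin 3) : coordK i 0 = 1 := by
  refine div_self fun h => ?_
  have h' := congrArg (evT hτ) h
  rw [map_circVec, map_par, evT_X, map_zero] at h'
  simp only [circVec, Matrix.cons_val_zero] at h'
  nlinarith [sq_nonneg (par τ i)]

/-- Substituting the variable of `ℝ(Y)`. -/
noncomputable def toY : RatFunc ℚ →+* RatFunc ℝ :=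
  RatFunc.liftRingHom ((algebraMap ℝ[X] (RatFunc ℝ)).comp (mapRingHom (algebraMap ℚ ℝ)))
    (nonZeroDivisors_le_comap_nonZeroDivisors_of_injective _
      ((RatFunc.algebraMap_injective ℝ).comp (Polynomial.map_injective _ (RingHom.injective _))))

/-- An `ℝ`-linear functional on `ℝ(Y)` extending evaluation at `τ`. -/
lemma exists_eval_functional :
    ∃ G : RatFunc ℝ →ₗ[ℝ] ℝ, ∀ r : RatFunc ℚ, G (toY r) = evT hτ r := by
  set S : Submodule ℝ (RatFunc ℝ) :=
    { carrier := {g | g.denom.eval τ ≠ 0}
      zero_mem' := by simp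
      add_mem' := fun {g g'} hg hg' h => by
        obtain ⟨w, hw⟩ := RatFunc.denom_add_dvd g g'
        have := congrArg (eval τ) hw
        rw [eval_mul, eval_mul, h, zero_mul] at this
        exact mul_ne_zero hg hg' this
      smul_mem' := fun c g hg h => by
        rw [RatFunc.smul_eq_C_mul] at h
        obtain ⟨w, hw⟩ := RatFunc.denom_mul_dvd (RatFunc.C c) g
        have := congrArg (eval τ) hw
        rw [RatFunc.denom_C, one_mul, eval_mul, h, zero_mul] at this
        exact hg this } with hS
  have hden : ∀ g : S, ((g : RatFunc ℝ).denom).eval₂ (RingHom.id ℝ) τ ≠ 0 := fun g => g.2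
  set e : S →ₗ[ℝ] ℝ :=
    { toFun := fun g => RatFunc.eval (RingHom.id ℝ) τ g
      map_add' := fun g g' => RatFunc.eval_add _ _ (hden g) (hden g')
      map_smul' := fun c g => by
        simp only [SetLike.val_smul, RatFunc.smul_eq_C_mul, RingHom.id_apply, smul_eq_mul]
        rw [RatFunc.eval_mul _ _ (by simp [RatFunc.denom_C]) (hden g), RatFunc.eval_C]
        rfl } with he
  obtain ⟨G, hG⟩ := LinearMap.exists_extend e
  refine ⟨G, fun r => ?_⟩
  set n := r.num.map (algebraMap ℚ ℝ) with hn
  set d := r.denom.map (algebraMap ℚ ℝ) with hd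
  have hd0 : d.eval τ ≠ 0 := by
    rw [hd, eval_map, ← aeval_def]
    exact (map_ne_zero_iff _ (transcendental_iff_injective.1 hτ)).2 r.denom_ne_zero
  have hdne : d ≠ 0 := fun h => hd0 (by simp [h])
  have hr : toY r = algebraMap ℝ[X] (RatFunc ℝ) n / algebraMap ℝ[X] (RatFunc ℝ) d := by
    rw [toY, RatFunc.liftRingHom_apply]
    rfl
  have hden' : (toY r).denom.eval τ ≠ 0 := by
    obtain ⟨w, hw⟩ := RatFunc.denom_div_dvd n d
    intro h
    rw [← hr] at hw
    apply hd0
    rw [hw, eval_mul, h, zero_mul]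
  have hval : G (toY r) = RatFunc.eval (RingHom.id ℝ) τ (toY r) :=
    LinearMap.congr_fun hG ⟨toY r, hden'⟩
  rw [hval, evT, RatFunc.liftRingHom_apply, RatFunc.eval]
  have hmain : (toY r).num * d = n * (toY r).denom := by
    apply RatFunc.algebraMap_injective ℝ
    rw [map_mul, map_mul]
    have h := RatFunc.num_div_denom (toY r)
    have hd' : algebraMap ℝ[X] (RatFunc ℝ) d ≠ 0 :=
      (map_ne_zero_iff _ (RatFunc.algebraMap_injective ℝ)).2 hdne
    have hq : algebraMap ℝ[X] (RatFunc ℝ) (toY r).denom ≠ 0 :=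
      (map_ne_zero_iff _ (RatFunc.algebraMap_injective ℝ)).2 (RatFunc.denom_ne_zero _)
    rwa [← div_eq_div_iff hq hd', h]
  have h2 := congrArg (eval τ) hmain
  rw [eval_mul, eval_mul] at h2
  simp only [eval₂_id, AlgHom.toRingHom_eq_coe, RingHom.coe_coe, aeval_def,
    eval₂_eq_eval_map (algebraMap ℚ ℝ), ← hn, ← hd]
  rw [div_eq_div_iff hden' hd0]
  exact h2

/-- The coefficient matrix over `ℝ(Y)` is nonsingular. -/
lemma coord_det_ne_zero :
    (Matrix.of fun (i m : Fin 3 × Fin 3) =>
      RatFunc.C (coordR hτ i m.1) * toY (coordK i m.2)).det ≠ 0 := by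
  set h : ℚ[X][X] →+* RatFunc ℝ :=
    (algebraMap ℝ[X] (RatFunc ℝ)).comp (mapRingHom (aeval τ).toRingHom) with hh
  have hinj : Function.Injective h := (RatFunc.algebraMap_injective ℝ).comp
    (Polynomial.map_injective _ (transcendental_iff_injective.1 hτ))
  have hX : h X = toY RatFunc.X := by
    simp [hh, toY, ← RatFunc.algebraMap_X]
  have hC : h (C X) = RatFunc.C τ := by
    simp [hh, RatFunc.algebraMap_C]
  intro hdet
  apply grid_det_ne_zero
  apply hinj
  rw [RingHom.map_det, map_zero]
  set den : Fin 3 × Fin 3 → RatFunc ℝ :=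
    fun i => RatFunc.C (circVec (par τ i) 0) * toY (circVec (par RatFunc.X i) 0) with hden
  have hM : h.mapMatrix (Matrix.of fun (i m : Fin 3 × Fin 3) =>
      circVec (par (C (X : ℚ[X])) i) m.1 * circVec (par (X : ℚ[X][X]) i) m.2) =
      Matrix.of fun i m => den i *
        (Matrix.of fun (i m : Fin 3 × Fin 3) =>
          RatFunc.C (coordR hτ i m.1) * toY (coordK i m.2)) i m := by
    ext1 i m
    have h0 : circVec (par τ i) 0 ≠ 0 := by
      simp only [circVec, Matrix.cons_val_zero]
      nlinarith [sq_nonneg (par τ i)]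
    have h1 : toY (circVec (par RatFunc.X i) 0) ≠ 0 := by
      refine (_root_.map_ne_zero _).2 fun hz => ?_
      have h' := congrArg (evT hτ) hz
      rw [map_circVec, map_par, evT_X, map_zero] at h'
      exact h0 h'
    simp only [RingHom.mapMatrix_apply, Matrix.map_apply, Matrix.of_apply, map_mul, hden,
      coordR_eq, coordK, map_div₀]
    rw [map_circVec h, map_circVec h, map_par h, map_par h, hX, hC, ← map_par, ← map_par,
      ← map_circVec, ← map_circVec]
    have h0' : RatFunc.C (circVec (par τ i) 0) ≠ 0 := (_root_.map_ne_zero _).2 h0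
    field_simp
  rw [hM, Matrix.det_mul_column, hdet, mul_zero]

/-- The target quadratic form. -/
def target : Fin 3 × Fin 3 → ℝ := fun m => if m.1 = m.2 ∧ m.1 ≠ 0 then 5 else 0

/-- The additive maps of the obstruction. -/
lemma exists_obstruction : ∃ lam : Fin 3 × Fin 3 → ℝ →+ ℝ,
    ∀ k l (T : ℝ), ∑ i, coordR hτ i k * lam i (coordR hτ i l * T) = target (k, l) * T := by
  classical
  obtain ⟨G, hG⟩ := exists_eval_functional hτ
  set Ξ := Matrix.of fun (i m : Fin 3 × Fin 3) =>
    RatFunc.C (coordR hτ i m.1) * toY (coordK i m.2) with hΞ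
  have hdet : IsUnit Ξ.det := isUnit_iff_ne_zero.2 (coord_det_ne_zero hτ)
  set Ψ : Fin 3 × Fin 3 → RatFunc ℝ →ₗ[ℝ] ℝ := fun i =>
    ∑ m, target m • G.comp (LinearMap.mulLeft ℝ (Ξ⁻¹ m i)) with hΨ
  have hsys : ∀ m g, ∑ i, Ψ i (Ξ i m * g) = target m * G g := by
    intro m g
    simp only [hΨ, LinearMap.sum_apply, LinearMap.smul_apply, LinearMap.comp_apply,
      LinearMap.mulLeft_apply, smul_eq_mul]
    rw [Finset.sum_comm, Finset.sum_eq_single m]
    · rw [← Finset.mul_sum, ← map_sum]
      simp only [← mul_assoc, ← Finset.sum_mul]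
      rw [← Matrix.mul_apply, Matrix.nonsing_inv_mul _ hdet, Matrix.one_apply_eq, one_mul]
    · intro m' _ hne
      rw [← Finset.mul_sum, ← map_sum]
      simp only [← mul_assoc, ← Finset.sum_mul]
      rw [← Matrix.mul_apply, Matrix.nonsing_inv_mul _ hdet, Matrix.one_apply_ne hne]
      simp
    · simp
  let := (evT hτ).toAlgebra
  obtain ⟨bs⟩ : Nonempty (Σ ι : Type, Module.Basis ι (RatFunc ℚ) ℝ) :=
    ⟨⟨_, Module.Basis.ofVectorSpace (RatFunc ℚ) ℝ⟩⟩
  obtain ⟨ι, bs⟩ := bs
  refine ⟨fun i =>
    { toFun := fun T => (bs.repr T).sum fun β a => bs β * Ψ i (toY a)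
      map_zero' := by simp
      map_add' := fun S T => by
        rw [map_add]
        exact Finsupp.sum_add_index' (fun _ => by simp) fun _ _ _ => by simp [mul_add] },
    fun k l T => ?_⟩
  simp only [AddMonoidHom.coe_mk, ZeroHom.coe_mk]
  have hsm : ∀ i, coordR hτ i l * T = coordK i l • T := fun i => by
    rw [Algebra.smul_def]; rfl
  have hrec : T = (bs.repr T).sum fun β a => bs β * evT hτ a := by
    conv_lhs => rw [← bs.linearCombination_repr T, Finsupp.linearCombination_apply]
    exact Finsupp.sum_congr fun β _ => by rw [Algebra.smul_def, mul_comm]; rfl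
  have hterm : ∀ i, (bs.repr (coordK i l • T)).sum (fun β a => bs β * Ψ i (toY a)) =
      (bs.repr T).sum fun β a => bs β * Ψ i (toY (coordK i l) * toY a) := by
    intro i
    rw [map_smul, Finsupp.sum_smul_index' (fun _ => by simp)]
    exact Finsupp.sum_congr fun β _ => by rw [smul_eq_mul, map_mul]
  simp only [hsm, hterm, Finsupp.mul_sum]
  conv_rhs => rw [hrec, Finsupp.mul_sum]
  simp only [Finsupp.sum]
  rw [Finset.sum_comm]
  refine Finset.sum_congr rfl fun β _ => ?_
  have h := hsys (k, l) (toY (bs.repr T β))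
  simp only [hΞ, Matrix.of_apply, hG] at h
  rw [← mul_assoc (target (k, l)), mul_comm (target (k, l)) (bs β), mul_assoc, ← h, Finset.mul_sum]
  refine Finset.sum_congr rfl fun i _ => ?_
  rw [mul_assoc (RatFunc.C _), ← RatFunc.smul_eq_C_mul, map_smul, smul_eq_mul]
  ring

end Vale.Agent.P058
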